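import Vale.Agent.P134.Bdl.B1

open scoped InnerProductSpace Laplacian

namespace Vale.Agent.Results.P134.Classes

variable {E : Type} [NormedAddCommGroup E] [InnerProductSpace ℝ E] [FiniteDimensional ℝ E]

omit [FiniteDimensional ℝ E] in
/-- `u` is one-dimensional: `u x = h (e · x)` for a unit vector `e` and a function `h`. -/
def OneDimensional (u : E → ℝ) : Prop :=
  ∃ (e : E) (h : ℝ → ℝ), ‖e‖ = 1 ∧ ∀ x, u x = h ⟪e, x⟫_ℝ

/-- `u` is a monotone solution: `u` is `C²`, `Δ u = u³ - u`, `|u| ≤ 1`, and the derivative of `u`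
in some fixed direction `a` is positive everywhere. -/
def MonotoneSolution (u : E → ℝ) : Prop :=
  ContDiff ℝ 2 u ∧ (∀ x, Δ u x = u x ^ 3 - u x) ∧ (∀ x, |u x| ≤ 1) ∧
    ∃ a : E, ∀ x, 0 < fderiv ℝ u x a

omit [InnerProductSpace ℝ E] [FiniteDimensional ℝ E] in
/-- The set of symmetries of `u`: all isometries `g` of `E` onto itself with `u ∘ g = u`. -/
def symmetries (u : E → ℝ) : Set (E ≃ᵢ E) := {g | ∀ x, u (g x) = u x}

omit [FiniteDimensional ℝ E] in
/-- `u` is uniformly recurrent along the linear subspace `V`: for every ball and every `ε` there is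
`L` such that every `v ∈ V` has a vector `τ` at distance at most `L` for which the translate of
`u` by `τ` is `ε`-close to `u` on the ball. -/
def RecurrentAlong (V : Submodule ℝ E) (u : E → ℝ) : Prop :=
  ∀ ε : ℝ, 0 < ε → ∀ R : ℝ, ∃ L : ℝ, ∀ v ∈ V, ∃ τ : E,
    ‖τ - v‖ ≤ L ∧ ∀ x, ‖x‖ ≤ R → |u (x + τ) - u x| ≤ ε

omit [FiniteDimensional ℝ E] in
/-- `u` is rotationally symmetric about the affine subspace `p + V`: its value is the same at any
two points with the same orthogonal projection to `p + V` and the same distance to `p + V`. -/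
def RotSymAbout (V : Submodule ℝ E) (p : E) (u : E → ℝ) : Prop :=
  ∀ x y, (∀ v ∈ V, ⟪v, x - y⟫_ℝ = 0) → ‖x - p‖ = ‖y - p‖ → u x = u y

omit [FiniteDimensional ℝ E] in
/-- The three classes of functions on the `n`-dimensional space `E`. -/
def Special (n : ℕ) (u : E → ℝ) : Prop :=
  (n = 4 ∧ (symmetries u).Infinite) ∨
  (∃ V : Submodule ℝ E, n ≤ Module.finrank ℝ V + 3 ∧ RecurrentAlong V u) ∨
  (4 ≤ n ∧ n ≤ 6 ∧ ∃ (V : Submodule ℝ E) (p : E), Module.finrank ℝ V = 2 ∧ RotSymAbout V p u)

/-- Three classes of solutions for which De Giorgi's question has a positive answer: in `ℝ⁴`, all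
solutions with infinitely many symmetries; in `ℝⁿ` for every `n`, the solutions which are uniformly
recurrent along a subspace of dimension at least `n - 3`; in `ℝ⁴`, `ℝ⁵` and `ℝ⁶`, the solutions
which are rotationally symmetric about a two-dimensional affine subspace. -/
theorem result (n : ℕ) (u : EuclideanSpace ℝ (Fin n) → ℝ) (hu : MonotoneSolution u)
    (h : Special n u) : OneDimensional u := by
  obtain ⟨hu, heq, hb, a, ha⟩ := hu
  rcases h with ⟨rfl, hinf⟩ | ⟨V, hV, hrec⟩ | ⟨hn4, hn6, V, p, hV, hsym⟩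
  · exact Vale.Agent.P134.sym_four hu heq hb ha hinf
  · exact Vale.Agent.P134.rec_euclid hu heq hb ha hV hrec
  · exact Vale.Agent.P134.rot_main hn4 hn6 hu heq hb ha hV hsym

end Vale.Agent.Results.P134.Classes
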